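import Vale.Agent.P218A1.Defs

/-! The base family and the equations on the ends. -/

noncomputable section

namespace Vale.Agent.P218A1
open Set Complex Metric Filter Topology Vale.Agent.P218EN Vale.Agent.P218EN.WA Vale.Agent.P218CH
open Vale.Agent.P218XI Vale.Agent.P218VA Vale.Agent.P218MP Vale.Agent.P272.K.LIN
open Vale.Agent.P218CO (T3 J2 pj EndOp EndSol LinEnd VC sgn ends CoreOp geoBd)
open Vale.Agent.P218CN (ConeFam coneOp jvE j0)
open Vale.Agent.P218GA (E3 Model)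

lemma norm_sgn (b : Bool) : ‖(sgn b : ℂ)‖ = 1 := by cases b <;> simp [sgn]

lemma sgn_mul_sgn (b : Bool) (z : ℂ) : sgn b * (sgn b * z) = z := by cases b <;> simp [sgn]

lemma pj_sgn (b : Bool) {f : ℝ × ℝ → ℂ} {p : ℝ × ℝ} (h : ContDiffAt ℝ 2 f p) :
    pj (fun q => sgn b * f q) p = (sgn b : ℂ) • pj f p := P218CO.cj_csmul (sgn b : ℂ) h

lemma ep_le {a : ℝ} (ha : 10 ^ 34 ≤ a) : ep a ≤ 1 / 4 := by
  have h : 40 ≤ √a := Real.le_sqrt_of_sq_le (by linarith)
  rw [ep, div_le_iff₀ (by linarith)]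
  linarith

lemma prof_D {a K W : ℝ} {α : ℂ} (ha : 1 ≤ a) (hK : a ≤ K) (hW : a ^ 2 ≤ W) (h : α ∈ D W K) :
    Prof a W α :=
  prof_of_D (K := a) (by linarith) (by linarith) (by nlinarith) (D_anti (by nlinarith) hK h)

variable {S : Set E3} {w : E3 → ℝ} {δ0 C0 : ℝ} {ι κ M β : Type} [TopologicalSpace M]
  [ChartedSpace E2 M] {m : Model S w δ0 C0 ι κ M} {ε : ι ⊕ κ → Bool} {𝒞 : Cov E2 M} {a K : ℝ}
  [Fintype β] {c : CoreOp (ι ⊕ κ) β M}

lemma Fit.jv (hc : Fit m ε c) (v : VC 𝒞) (j : ι ⊕ κ) :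
    c.jv v j = jvE (P218CO.ends m) 𝒞 j v := by
  rw [P218CN.jv_eq, hc.ends]

namespace Pack
variable (P : Pack m ε 𝒞 a K)
include P

lemma one_le : 1 ≤ a := by linarith [P.big]

lemma pos : 0 < a := by linarith [P.big]

lemma prof {W : ℝ} {α : ℂ} (i : ι) (hW : a ^ 2 ≤ W) (h : α ∈ P218CH.D W K) : Prof a W α :=
  prof_D P.one_le (P.endIn i).hK hW h

lemma cone_le {v : VC 𝒞} (hv : v ∈ ball (0 : VC 𝒞) P.r) : P.C * ‖v‖ ≤ 1 / 4 :=
  (mul_le_mul_of_nonneg_left (mem_ball_zero_iff.1 hv).le P.C_nonneg).trans P.small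

lemma orient (hc : Fit m ε c) {i : ι} {I : Set ℝ} (hI : I ⊆ Ioi a) {v : VC 𝒞} {μ : ℝ × ℝ → ℂ}
    (h : EndSol (P218OP.cylOp m i) a I (evT (P.D i v)) μ) :
    EndSol (c.op (.inl i)) a I (c.jv v (.inl i)) fun p => sgn (ε (.inl i)) * μ p := by
  rw [hc.op, hc.jv]
  exact endSol_orient _ (h.congr fun p hp h6 => (P.col i v p ⟨le_of_lt (hI hp), h6.le⟩).symm)

lemma cone_sol (hc : Fit m ε c) (k : κ) {v : VC 𝒞} (hv : v ∈ ball (0 : VC 𝒞) P.r) :
    EndSol (c.op (.inr k)) a (Ioi a) (c.jv v (.inr k)) (j0 (P.Jc k v)) := by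
  rw [hc.op, hc.jv]
  exact (P.cone k).sol v hv

/-- the solutions of the cut problems solve the equations on the ends -/
theorem endSol (hc : Fit m ε c) {W : ι → ℝ} (hW : ∀ i, a ^ 2 ≤ W i) {α : ι → ℂ}
    (hα : α ∈ DD W K) {v : VC 𝒞} (hv : v ∈ ball (0 : VC 𝒞) P.r) (j : ι ⊕ κ) :
    EndSol (c.op j) a (lev a W j) (c.jv v j) (P.OW W α v j) := by
  rcases j with i | k
  · exact P.orient hc Ioo_subset_Ioi_self ((P.sj i).endSol_rp P.le (P.prof i (hW i) (hα i))
      (by nlinarith [hW i, P.big]) ((P.fam i).sol _ (hW i) (α i, v) ⟨hα i, hv⟩))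
  · exact P.cone_sol hc k hv

omit P in
lemma sub_lev {W : ι → ℝ} (hW : ∀ i, a + 9 ≤ W i) (j : ι ⊕ κ) : Ioo a (a + 9) ⊆ lev a W j := by
  rcases j with i | k
  exacts [Ioo_subset_Ioo_right (hW i), Ioo_subset_Ioi_self]

/-- the radius function of a cylindrical end -/
theorem ub_add {W : ι → ℝ} {α : ι → ℂ} {i : ι} (hW : a ^ 2 ≤ W i) (hα : α i ∈ P218CH.D (W i) K)
    (v : VC 𝒞) {p : ℝ × ℝ} (hp : p.1 ∈ Icc a (W i)) :
    m.U i p + sgn (ε (.inl i)) * P.OW W α v (.inl i) p = U0 (α i) (P.J i (W i) (α i, v)) p := by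
  rw [U0_eq_rp (P.prof i hW hα) _ hp, ← (P.sj i).e0_eq (P.le.trans hp.1), OW, Sum.elim_inl,
    sgn_mul_sgn, e0_sub]
  ring

/-- **the base family** -/
theorem baseFam [Fintype ι] (hc : Fit m ε c) : c.BaseFam a P.r 1 geoBd P.O P.mO := by
  have e4 := ep_le P.big
  have b30 : 10 ^ 30 ≤ a := by linarith [P.big]
  refine ⟨P.r_pos, fun v hv j => ?_, fun v hv j => ?_, fun j p hp => ?_, ?_, fun j p hp => ?_,
    fun j p hp => ?_, ?_, fun v hv j p hp => ?_,
    fun L => ⟨1 / 4 + ‖P.JS‖, fun v hv j p hp => ?_⟩, fun v hv => ?_, fun v hv j θ => ?_,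
    fun v hv hr => ⟨fun j p hp => ?_, fun q => ?_⟩⟩
  · rcases j with i | k
    exacts [P.orient hc Subset.rfl ((P.sj i).O0_sol P.le (P.can i) hv), P.cone_sol hc k hv]
  · rcases j with i | k
    exacts [continuousOn_const.mul (O0_cont (P.can i) hv), (ConeFam.cont v).continuousOn]
  · rcases j with i | k
    · simp only [O, Sum.elim_inl, O0_zero (P.can i) P.r_pos hp, mul_zero]
    · exact (P.cone k).zero0 p
  · funext q
    simp [mO, m0_zero (P.can q.1) (le6 a)]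
  · rcases j with i | k
    exacts [(O0_hol0 (P.can i) p).const_mul _, (P.cone k).hol0 p]
  · rcases j with i | k
    · exact ((O0_hol2 (P.can i) (P.endIn i).toSEnd P.pos hp).const_smul
        (sgn (ε (.inl i)) : ℂ)).congr fun v hv => pj_sgn _
          (O0_pj (P.can i) (P.endIn i).toSEnd P.pos hv (le_max_left _ _) (mem_lev _ hp)).1
    · exact (P.cone k).hol2 hp
  · exact differentiableOn_pi.2 fun q =>
      (differentiableOn_pi.1 (m0_hol (P.can q.1)) q.2).const_mul _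
  · rcases j with i | k
    · have := O0_bd0 (P.can i) (P.endIn i).toSEnd (P.endIn i).R_le b30 hv hp
      simp only [O, Sum.elim_inl, norm_mul, norm_sgn]
      linarith
    · linarith [show ‖P.O v (.inr k) p‖ ≤ _ from (P.cone k).bd0 hv p, P.cone_le hv]
  · rcases j with i | k
    · rw [show pj (P.O v (.inl i)) p = _ from pj_sgn _
        (O0_pj (P.can i) (P.endIn i).toSEnd P.pos hv (le_max_left _ _) (mem_lev _ hp.1)).1,
        norm_smul, norm_sgn]
      linarith [O0_bd2 (P.can i) (P.endIn i).toSEnd P.one_le hv hp.1, norm_le_pi_norm P.JS i]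
    · linarith [show ‖pj (P.O v (.inr k)) p‖ ≤ _ from (P.cone k).bd2 hv hp.1, P.cone_le hv,
        norm_nonneg P.JS]
  · refine (pi_norm_le_iff_of_nonneg zero_le_one).2 fun q => ?_
    rw [mO, norm_mul, norm_sgn]
    linarith [norm_le_pi_norm (m0 a P.L0 (P.JS q.1) (P.Y q.1) v) q.2,
      m0_bd (P.can q.1) (le6 a) P.r_pos hv]
  · rcases j with i | k
    · simp only [O, mO, geoBd, Sum.elim_inl, O0_bdry (P.can i) (le6 a) hv,
        add_apply, smul_apply,
        ContinuousLinearMap.proj_apply, smul_eq_mul]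
      ring
    · exact (P.cone k).ini v hv θ
  · rcases j with i | k
    · simp only [O, Sum.elim_inl, im_ofReal_mul,
        (O0_real (P.can i) (P.endIn i).toSEnd hv hr).1, mul_zero]
    · exact (P.cone k).real0 hv hr p
  · rw [mO, im_ofReal_mul, (O0_real (P.can q.1) (P.endIn q.1).toSEnd hv hr).2, mul_zero]

end Pack

end Vale.Agent.P218A1
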