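import Vale.Agent.P218XI.Col4
import Vale.Agent.P218CN.Ori
import Vale.Agent.P218SQ.D7d

/-! The solutions on all ends and the collar data which they define. -/

noncomputable section

namespace Vale.Agent.P218A1
open Set Complex Metric Filter Topology Vale.Agent.P218EN Vale.Agent.P218EN.WA Vale.Agent.P218CH
open Vale.Agent.P218XI Vale.Agent.P218VA Vale.Agent.P218MP Vale.Agent.P272.K.LIN
open Vale.Agent.P218CO (T3 J2 pj EndOp EndSol LinEnd VC sgn ends CoreOp)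
open Vale.Agent.P218CN (ConeFam coneOp jvE j0)
open Vale.Agent.P218GA (E3 Model)

variable {S : Set E3} {w : E3 → ℝ} {δ0 C0 : ℝ} {ι κ M : Type} [TopologicalSpace M]
  [ChartedSpace E2 M]

/-- The solutions of the end problems with collar at the level `a`. -/
structure Pack (m : Model S w δ0 C0 ι κ M) (ε : ι ⊕ κ → Bool) (𝒞 : Cov E2 M) (a K : ℝ) where
  /-- the radius of the ball of inputs -/
  r : ℝ
  /-- the size of the class -/
  R : ℝ
  /-- the first level of the canonical expansion -/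
  L0 : ℝ
  /-- the constant for the conical ends -/
  C : ℝ
  /-- the first level of the jets of the model -/
  s0 : ℝ
  /-- the jets of the model -/
  JS : ι → Fin 6 → WA
  /-- the oriented first order jets of the input -/
  D : ι → VC 𝒞 →L[ℂ] T3 WA
  /-- the solutions on the cylindrical ends -/
  J : ι → ℝ → ℂ × VC 𝒞 → Fin 6 → WA
  /-- the coefficients of the canonical expansion -/
  Y : ι → ℝ → Fin 3 → VC 𝒞 → Fin 6 → WA
  /-- the solutions on the conical ends -/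
  Jc : κ → VC 𝒞 → Fin 6 → WA
  big : 10 ^ 34 ≤ a
  r_pos : 0 < r
  le : s0 ≤ a
  sj : ∀ i, SJet m i s0 (JS i)
  col : ∀ i v (p : ℝ × ℝ), p.1 ∈ Icc a (a + 6) →
    evT (D i v) p = (sgn (ε (.inl i)) : ℂ) • jvE (ends m) 𝒞 (.inl i) v p
  endIn : ∀ i, EndIn a (a + 6) r R K {v | v.im = 0} (Cf a (JS i) (D i)) (JS i)
  fam : ∀ i, EndFam a (a + 6) r R K {v | v.im = 0} (Cf a (JS i) (D i)) (JS i) (J i)
  can : ∀ i, Can a (a + 6) r K L0 {v | v.im = 0} (Cf a (JS i) (D i)) (JS i) (J i) (Y i)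
  cone : ∀ k, ConeFam ((coneOp m k).orient (ε (.inr k))) a r C {v | v.im = 0}
    (jvE (ends m) 𝒞 (.inr k)) (Jc k)
  C_nonneg : 0 ≤ C
  small : C * r ≤ 1 / 4

/-- the levels on which the equations on the ends hold -/
def lev (a : ℝ) (W : ι → ℝ) : ι ⊕ κ → Set ℝ := Sum.elim (fun i => Ioo a (W i)) fun _ => Ioi a

namespace Pack
variable {m : Model S w δ0 C0 ι κ M} {ε : ι ⊕ κ → Bool} {𝒞 : Cov E2 M} {a K : ℝ}
  (P : Pack m ε 𝒞 a K)

/-- the base family -/
def O (v : VC 𝒞) : ι ⊕ κ → ℝ × ℝ → ℂ :=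
  Sum.elim (fun i p => sgn (ε (.inl i)) * O0 P.L0 (P.JS i) (P.Y i) v p) fun k => j0 (P.Jc k v)

/-- its modes -/
def mO (v : VC 𝒞) (q : ι × Fin 3) : ℂ := sgn (ε (.inl q.1)) * m0 a P.L0 (P.JS q.1) (P.Y q.1) v q.2

/-- the solutions on the ends which are cut at the levels `W` -/
def OW (W : ι → ℝ) (α : ι → ℂ) (v : VC 𝒞) : ι ⊕ κ → ℝ × ℝ → ℂ :=
  Sum.elim (fun i p => sgn (ε (.inl i)) * e0 (rp a (W i) 0 (α i) (P.J i (W i) (α i, v)) - P.JS i) p)
    fun k => j0 (P.Jc k v)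

/-- their modes -/
def mW (W : ι → ℝ) (α : ι → ℂ) (v : VC 𝒞) (q : ι × Fin 3) : ℂ := sgn (ε (.inl q.1)) *
  md a (rp a (W q.1) 0 (α q.1) (P.J q.1 (W q.1) (α q.1, v)) - P.JS q.1) q.2

/-- the canonical approximation -/
def Ob (g : ι → ℂ) (v : VC 𝒞) : ι ⊕ κ → ℝ × ℝ → ℂ :=
  Sum.elim (fun i p => sgn (ε (.inl i)) * gl P.L0 (fun L => Yt (P.Y i L) (g i) v - P.JS i) p)
    fun k => j0 (P.Jc k v)

/-- its modes -/
def mb (g : ι → ℂ) (v : VC 𝒞) (q : ι × Fin 3) : ℂ :=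
  sgn (ε (.inl q.1)) * md a (Yt (P.Y q.1 P.L0) (g q.1) v - P.JS q.1) q.2

end Pack

/-- `c` has the ends and the operators of the model, with the orientations `ε` -/
structure Fit {β : Type} (m : Model S w δ0 C0 ι κ M) (ε : ι ⊕ κ → Bool) (c : CoreOp (ι ⊕ κ) β M) :
    Prop where
  ends : c.𝓔 = ends m
  op : ∀ j, c.op j = (P218OP.endOp m j).orient (ε j)

end Vale.Agent.P218A1
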