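import Vale.Agent.P218A1.Fams
import Vale.Agent.P218EN.CanB

/-! Existence of the solutions on all ends. -/

noncomputable section

namespace Vale.Agent.P218A1
open Set Complex Metric Filter Topology Vale.Agent.P218EN Vale.Agent.P218EN.WA Vale.Agent.P218CH
open Vale.Agent.P218XI Vale.Agent.P218VA Vale.Agent.P218MP Vale.Agent.P272.K.LIN
open Vale.Agent.P218CO (T3 VC sgn ends)
open Vale.Agent.P218GA (E3 Model)

lemma can_mono {V : Type*} [NormedAddCommGroup V] [NormedSpace ℂ V] {a s r K L0 L1 : ℝ}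
    {RV : Set V} {Cf' : V × (Fin 6 → WA) → WA} {JS : Fin 6 → WA} {J : ℝ → ℂ × V → Fin 6 → WA}
    {Y : ℝ → Fin 3 → V → Fin 6 → WA} (h : Can a s r K L0 RV Cf' JS J Y) (h1 : L0 ≤ L1) :
    Can a s r K L1 RV Cf' JS J Y :=
  ⟨h.le.trans h1, fun L hL => h.holo L (h1.trans hL), fun L hL => h.bdd L (h1.trans hL),
    fun L hL => h.can L (h1.trans hL), fun L L' hL => h.compat L L' (h1.trans hL),
    fun L hL => h.real L (h1.trans hL), fun L hL => h.zero L (h1.trans hL),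
    fun L hL => h.jet L (h1.trans hL), fun L hL => h.eq0 L (h1.trans hL),
    fun L hL => h.dir L (h1.trans hL), fun L hL => h.bd0 L (h1.trans hL),
    fun L hL v hv w hw => h.grow L (h1.trans hL) v hv w ⟨h1.trans hw.1, hw.2⟩,
    fun L hL => h.ljet L (h1.trans hL), fun L hL => h.ldir L (h1.trans hL),
    fun L hL => h.leq L (h1.trans hL)⟩

variable {S : Set E3} {w : E3 → ℝ} {δ0 C0 : ℝ} {ι κ M : Type} [TopologicalSpace M]
  [ChartedSpace E2 M] [T2Space M] [RSm E2 M] [Finite ι] [Finite κ]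

/-- **the solutions on all ends exist** for every large level of the collar -/
theorem exists_pack (m : Model S w δ0 C0 ι κ M) : ∀ᶠ a in atTop, ∀ (ε : ι ⊕ κ → Bool)
    (𝒞 : Cov E2 M) (K : ℝ), a ≤ K → Nonempty (Pack m ε 𝒞 a K) := by
  obtain ⟨R, R0, hR⟩ := exists_endIn.{0}
  obtain ⟨a1, h1⟩ := hR R R0 le_rfl
  choose JS hJS using fun i => exists_sJet m i (lt_add_one m.w0)
  choose a2 _ h2 using fun i => (hJS i).sEnd R0
  filter_upwards [eventually_ge_atTop a1, eventually_all.2 fun i => eventually_ge_atTop (a2 i),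
    eventually_ge_atTop (10 ^ 34), eventually_ge_atTop (m.w0 + 1), P218CN.exists_boxes m]
    with a ha1 ha2 ha3 ha4 hb ε 𝒞 K hK
  obtain ⟨δ, C, Jc, δ0, C0, hC, hJc⟩ := hb 𝒞 (fun k => ε (.inr k)) (1 / 4) (by norm_num)
  choose D0 hD0 hD1 using fun i => P218CN.exists_col (ends m) 𝒞 (.inl i)
    ((lt_add_one m.w0).trans_le ha4) (le6 a)
  choose r0 r0p hr0 using fun i =>
    h1 a ha1 ((sgn (ε (.inl i)) : ℂ) • D0 i) (JS i) (h2 i a (ha2 i))
  have h3 : ∀ᶠ r in 𝓝[>] (0 : ℝ), (∀ i, r ≤ r0 i) ∧ r ≤ δ ∧ 0 < r :=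
    (eventually_all.2 fun i => (eventually_le_nhds (r0p i)).filter_mono nhdsWithin_le_nhds).and
      (((eventually_le_nhds δ0).filter_mono nhdsWithin_le_nhds).and self_mem_nhdsWithin)
  obtain ⟨r, r1, r2, r3⟩ := h3.exists
  have I := fun i => hr0 i r K {v | v.im = 0} r3 (r1 i) hK fun v hv => by
    simp only [smul_apply, Prod.smul_fst, Prod.smul_snd, P218CN.cj_smul, (hD1 i v hv).1,
      (hD1 i v hv).2.1, (hD1 i v hv).2.2, and_self]
  choose J hJ using fun i => (I i).exists_endFam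
  choose L0 Y hY using fun i => exists_can (I i) (hJ i) ha3
  obtain ⟨L, hL⟩ := (finite_range L0).bddAbove
  refine ⟨⟨r, R, L, C, m.w0 + 1, JS, fun i => (sgn (ε (.inl i)) : ℂ) • D0 i, J, Y, Jc, ha3, r3, ha4,
    hJS, fun i v p hp => ?_, I, hJ, fun i => can_mono (hY i) (hL ⟨i, rfl⟩),
    fun k => (hJc k).mono r3 r2, C0, (mul_le_mul_of_nonneg_left r2 C0).trans hC⟩⟩
  have e := hD0 i v p.1 p.2
  rw [P218MP.cl_of_mem hp] at e
  rw [← e]
  simp only [evT, smul_apply, Prod.smul_fst, Prod.smul_snd, ev_smul, Prod.smul_mk, smul_eq_mul]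

end Vale.Agent.P218A1
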