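import Vale.Agent.P218A1.Rep
import Vale.Agent.P218CH.EndX

/-! The families of collar data form an input for the canonical parameter. -/

noncomputable section

namespace Vale.Agent.P218A1
open Set Complex Metric Filter Topology Vale.Agent.P218EN Vale.Agent.P218EN.WA Vale.Agent.P218CH
open Vale.Agent.P218XI Vale.Agent.P218VA Vale.Agent.P218MP Vale.Agent.P272.K.LIN
open Vale.Agent.P218CO (T3 J2 pj EndOp EndSol LinEnd VC sgn ends CoreOp geoBd)
open Vale.Agent.P218CN (ConeFam coneOp jvE j0)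
open Vale.Agent.P218GA (E3 Model)
open Vale.Agent.P218SQ.D7 (Cl Rl HolFam Fams gv er)
open Vale.Agent.P218SQ (Adm)
open Vale.Agent.P218TP (GG)

lemma linEnd_zero (o : EndOp) (s : ℝ) : LinEnd o s 0 fun _ => ((0 : ℝ) : ℂ) :=
  ⟨fun _ _ => rfl, continuousOn_const, fun _ _ => contDiffAt_const, fun p _ => by
    simpa [P218CO.cj_zero] using hasDerivAt_const (0 : ℂ) (o.END s p 0 0)⟩

lemma hasDerivAt_Yt {V : Type*} (Y : Fin 3 → V → Fin 6 → WA) (g : ℂ) (v : V) (J : Fin 6 → WA) :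
    HasDerivAt (fun t : ℂ => Yt Y (t * g) v - J) (g • Y 1 v) 0 := by
  have h1 : HasDerivAt (fun t : ℂ => t * g) g 0 := by simpa using (hasDerivAt_id (0 : ℂ)).mul_const g
  simpa [Yt] using (((h1.smul_const (Y 1 v)).const_add (Y 0 v)).fun_add
    ((h1.fun_pow 2).smul_const (Y 2 v))).sub_const J

lemma eq_zero_of_sqrt {g C L : ℝ} (h : ∀ x, L ≤ x → |g| * (x / 4) ≤ C * x ^ (1 / 2 : ℝ)) :
    g = 0 := by
  by_contra h0
  have h1 := abs_pos.2 h0
  set y := max (max L 1) ((4 * C / |g|) + 1) with hy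
  have y1 : 1 ≤ y := le_max_of_le_left (le_max_right _ _)
  have y2 : 4 * C < y * |g| := by
    rw [← div_lt_iff₀ h1]; exact (lt_add_one _).trans_le (le_max_right _ _)
  have h2 := h (y ^ 2) (by nlinarith [show L ≤ y from le_max_of_le_left (le_max_left _ _)])
  rw [← Real.sqrt_eq_rpow, Real.sqrt_sq (by linarith)] at h2
  nlinarith

variable {S : Set E3} {w : E3 → ℝ} {δ0 C0 : ℝ} {ι κ M β : Type} [TopologicalSpace M]
  [ChartedSpace E2 M] {m : Model S w δ0 C0 ι κ M} {ε : ι ⊕ κ → Bool} {𝒞 : Cov E2 M} {a K : ℝ}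
  {c : CoreOp (ι ⊕ κ) β M}

namespace Pack
variable (P : Pack m ε 𝒞 a K)

/-- the slow solutions of the linearised equation -/
def yl (g : ι → ℝ) : ι ⊕ κ → ℝ × ℝ → ℝ :=
  Sum.elim (fun i p => sgn (ε (.inl i)) * (g i * (ys P.L0 (P.Y i) p).re)) fun _ _ => 0

/-- their modes -/
def ml (g : ι → ℝ) (q : ι × Fin 3) : ℝ :=
  sgn (ε (.inl q.1)) * (g q.1 * (md a (P.Y q.1 P.L0 1 0) q.2).re)

lemma yl_eq (g : ι → ℝ) (i : ι) : (fun p => (P.yl g (.inl i) p : ℂ)) =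
    fun p => sgn (ε (.inl i)) * (g i * ys P.L0 (P.Y i) p) := funext fun p => by
  rw [yl, Sum.elim_inl, ofReal_mul, ofReal_mul,
    conj_eq_iff_re.1 (conj_eq_iff_im.2 (ys_real (P.can i) P.r_pos P218CO.Cx.im_zero p))]

lemma ml_eq (g : ι → ℝ) (q : ι × Fin 3) :
    (P.ml g q : ℂ) = sgn (ε (.inl q.1)) * (g q.1 * md a (P.Y q.1 P.L0 1 0) q.2) := by
  rw [ml, ofReal_mul, ofReal_mul, conj_eq_iff_re.1 (conj_eq_iff_im.2 (im_md
    ((P.can q.1).real _ le_rfl 1 0 (mem_ball_self P.r_pos) P218CO.Cx.im_zero 0) q.2))]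

lemma abs_yl (g : ι → ℝ) (i : ι) (p : ℝ × ℝ) :
    |P.yl g (.inl i) p| = |g i| * ‖ys P.L0 (P.Y i) p‖ := by
  rw [← Real.norm_eq_abs, ← norm_real, congrFun (P.yl_eq g i) p, norm_mul, norm_sgn, one_mul,
    norm_mul, norm_real, Real.norm_eq_abs]

lemma ys_bd (i : ι) {p : ℝ × ℝ} (hp : P.L0 ≤ p.1) :
    p.1 / 4 ≤ ‖ys P.L0 (P.Y i) p‖ ∧ ‖ys P.L0 (P.Y i) p‖ ≤ p.1 := by
  have h0 : 0 ≤ p.1 := by linarith [(P.can i).le, P.pos]
  have h1 := ys_grow (P.can i) P.r_pos hp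
  have h2 : ‖(p.1 / 2 : ℂ)‖ = p.1 / 2 := by
    rw [norm_div, norm_real, Real.norm_of_nonneg h0, Complex.norm_two]
  have h3 := abs_norm_sub_norm_le (ys P.L0 (P.Y i) p) (-(p.1 / 2 : ℂ))
  rw [norm_neg, sub_neg_eq_add, h2, abs_le] at h3
  constructor <;> linarith [h3.1, h3.2]

lemma yl_linEnd (hc : Fit m ε c) (g : ι → ℝ) (j : ι ⊕ κ) :
    LinEnd (c.op j) a 0 fun p => (P.yl g j p : ℂ) := by
  rcases j with i | k
  · rw [hc.op, yl_eq]
    have h1 := (P.sj i).linEnd P.le (P.can i) P.r_pos (g i) 0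
    have e : O1 P.L0 (P.Y i) (g i) 0 = fun p => g i * ys P.L0 (P.Y i) p := funext fun p => by
      simp only [O1, ys, gl, e0, Yl, map_zero, add_zero, Pi.smul_apply, ev_smul]
    rw [e, map_zero] at h1
    exact linEnd_orient _ (linEnd_congr h1 fun p _ _ => by simp [evT, ev_zero, Prod.ext_iff])
  · exact linEnd_zero _ _

lemma yl_bdry (g : ι → ℝ) (j : ι ⊕ κ) (θ : ℝ) :
    (P.yl g j (a, θ) : ℂ) = geoBd j θ fun q => (P.ml g q : ℂ) := by
  rcases j with i | k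
  · rw [congrFun (P.yl_eq g i), ys_bdry (P.can i) (le6 a) P.r_pos]
    simp only [geoBd, Sum.elim_inl, add_apply, smul_apply, ContinuousLinearMap.proj_apply,
      smul_eq_mul, ml_eq]
    ring
  · simp [yl, geoBd]

lemma hasDerivAt_Ob (g : ι → ℝ) (j : ι ⊕ κ) {p : ℝ × ℝ} (hp : p.1 ∈ Ioo a (a + 9)) :
    HasDerivAt (fun t : ℂ => pj (P.Ob (t • fun i => (g i : ℂ)) 0 j) p)
      (pj (fun q => (P.yl g j q : ℂ)) p) 0 := by
  rcases j with i | k
  · have h := fun x => ((P.rep_Ob (le_max_right P.L0 _) (le_max_left _ _) x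
      (mem_ball_self P.r_pos)).cd i p hp).2
    obtain ⟨h1, h2⟩ := ys_pj (P.can i) P.pos P.r_pos (le_max_left P.L0 (a + 9)) (p := p)
      ⟨hp.1, hp.2.trans_le (le_max_right _ _)⟩
    rw [yl_eq, pj_sgn _ (contDiffAt_const.mul h1),
      show pj (fun q => g i * ys P.L0 (P.Y i) q) p = _ from P218CO.cj_csmul (g i : ℂ) h1]
    simp only [h, h2, ← map_smul]
    exact (jtL p).hasFDerivAt.comp_hasDerivAt (0 : ℂ)
      ((hasDerivAt_Yt (P.Y i _) (g i) 0 (P.JS i)).const_smul (sgn (ε (.inl i)) : ℂ))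
  · simpa [Ob, yl, P218CO.cj_zero] using hasDerivAt_const (0 : ℂ) (pj (j0 (P.Jc k 0)) p)

lemma hasDerivAt_mb (g : ι → ℝ) :
    HasDerivAt (fun t : ℂ => P.mb (t • fun i => (g i : ℂ)) 0) (fun q => (P.ml g q : ℂ)) 0 := by
  refine hasDerivAt_pi.2 fun q => ?_
  have := (hasDerivAt_pi.1 ((md a).hasFDerivAt.comp_hasDerivAt (0 : ℂ)
    (hasDerivAt_Yt (P.Y q.1 P.L0) (g q.1) 0 (P.JS q.1))) q.2).const_mul (sgn (ε (.inl q.1)) : ℂ)
  simpa [mb, ml_eq] using this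

omit P in
lemma comp_pr [Fintype ι] {f : ℂ × VC 𝒞 → Fin 6 → WA} {U : Set ℂ} {Ω : Set (ι → ℂ)} {r : ℝ} (i : ι)
    (h : DifferentiableOn ℂ f (U ×ˢ ball 0 r)) (hΩ : ∀ x ∈ Ω, x i ∈ U) (J : Fin 6 → WA) :
    DifferentiableOn ℂ (fun q : (ι → ℂ) × VC 𝒞 => f (q.1 i, q.2) - J) (Ω ×ˢ ball 0 r) :=
  (h.comp (f := fun q : (ι → ℂ) × VC 𝒞 => (q.1 i, q.2)) (by fun_prop)
    fun q hq => ⟨hΩ _ hq.1, hq.2⟩).sub_const J

lemma holo_ab (i : ι) {W L : ℝ} (hW : a ^ 2 ≤ W) (h1 : a ≤ L) (h2 : 14 * L ≤ W) :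
    DifferentiableOn ℂ (fun q : ℂ × VC 𝒞 => ab a L q.1 (P.J i W q))
      (P218CH.D W K ×ˢ ball 0 P.r) :=
  diff_ab h1 ((isOpen_D (by nlinarith [P.pos])).prod isOpen_ball) differentiableOn_fst
    (fun _ hz => P218PB.flat_of_D P.one_le (by linarith [(P.endIn i).hK, P.pos]) h1 h2 hz.1)
    ((P.fam i).holo _ hW)

lemma real_ab (i : ι) {W L : ℝ} (hW : a ^ 2 ≤ W) (h1 : a ≤ L) (h2 : L ≤ W) {α : ℂ}
    (hα : α ∈ P218CH.D W K) (hi : α.im = 0) {v : VC 𝒞} (hv : v ∈ ball (0 : VC 𝒞) P.r)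
    (h0 : v.im = 0) (l : Fin 6) : cj (ab a L α (P.J i W (α, v)) l) = ab a L α (P.J i W (α, v)) l := by
  have h3 := (P.fam i).real _ hW (α, v) ⟨hα, hv⟩ hi h0
  have h4 := (P.prof i hW hα).mono h2
  obtain ⟨x, rfl⟩ : ∃ x : ℝ, α = x := ⟨α.re, Complex.ext rfl (by simpa using hi)⟩
  rw [cj_ab h1 h4, funext h3]

variable [Fintype ι]

/-- **the input for the canonical parameter** -/
theorem fams [Fintype κ] (hc : Fit m ε c) : ∃ w0, a ^ 2 ≤ w0 ∧
    Fams c a P.r geoBd P.O P.mO GG K w0 P.OW P.mW P.Ob P.mb := by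
  obtain ⟨L, L1, L2⟩ : ∃ L, a + 9 ≤ L ∧ P.L0 ≤ L := ⟨_, le_max_right _ _, le_max_left _ _⟩
  have a0 := P.pos
  choose C W1 hC using fun i => (P.can i).can L L2
  choose B B0 hB using fun i => Yt_sub_le (P.can i) L2
  obtain ⟨w1, h1⟩ := (finite_range W1).bddAbove
  obtain ⟨w0, w2, w3, w4⟩ : ∃ w0, a ^ 2 ≤ w0 ∧ 14 * L ≤ w0 ∧ w1 ≤ w0 :=
    ⟨max (a ^ 2) (max (14 * L) w1), le_max_left _ _, le_max_of_le_right (le_max_left _ _),
      le_max_of_le_right (le_max_right _ _)⟩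
  have rW := fun W (hW : Adm w0 W) α (hα : α ∈ DD W K) v (hv : v ∈ ball (0 : VC 𝒞) P.r) =>
    P.rep_OW L1 (fun i => w2.trans (hW i).1) (fun i => by linarith [(hW i).1]) hα hv
  have rb := fun g v (hv : v ∈ ball (0 : VC 𝒞) P.r) => P.rep_Ob L1 L2 g hv
  have sb : ∀ {i} {x : WA}, cj x = x → cj (x - P.JS i 0) = x - P.JS i 0 := fun h =>
    (map_sub cjR _ _).trans (congrArg₂ _ h ((P.sj _).real 0))
  have L0 : a ≤ L := by linarith
  refine ⟨w0, w2, fun W hW => P.holFam (rW W hW) (fun i => comp_pr (Ω := DD W K) i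
      (P.holo_ab i (w2.trans (hW i).1) L0 (w3.trans (hW i).1)) (fun _ h => h i) _)
      fun α hα hi v hv h0 i => sb (P.real_ab i (w2.trans (hW i).1) L0 (by linarith [(hW i).1])
        (hα i) (hi i) hv h0 0),
    P.holFam (fun g _ => rb g) (fun i => comp_pr i (holo_Yt (P.can i) L2) (fun _ _ => trivial) _)
      fun g _ hi v hv h0 i => sb (real_Yt (P.can i) L2 (hi i) hv h0 0),
    ⟨2 * ∑ i, B i, fun g hg v hv => ?_⟩, ⟨2 * ∑ i, |C i|, fun W hW α hα v hv => ?_⟩,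
    fun W hW => ⟨2 * ∑ i, 5 * P218PB.CP * W i ^ 3, ?_⟩, fun g => ⟨P.yl g, P.ml g,
      P.yl_linEnd hc g, P.yl_bdry g, fun j p hp => (P.hasDerivAt_Ob g j hp).fst,
      P.hasDerivAt_mb g, ⟨‖g‖, max P.L0 0, fun j p hp => ?_⟩, fun ⟨C', L', h⟩ => funext fun i => ?_⟩⟩
  · rw [← P.Ob_zero, ← P.mb_zero, mul_assoc]
    refine (rb g v hv).cl (rb 0 v hv) P.one_le
      (mul_nonneg (Finset.sum_nonneg fun i _ => B0 i) (norm_nonneg _)) fun i => ?_
    rw [sub_sub_sub_cancel_right]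
    exact (hB i _ ((norm_le_pi_norm g i).trans (mem_ball_zero_iff.1 hg).le) v hv).trans
      (mul_le_mul (Finset.single_le_sum (fun i _ => B0 i) (Finset.mem_univ i))
        (norm_le_pi_norm g i) (norm_nonneg _) (Finset.sum_nonneg fun i _ => B0 i))
  · have e0 : ∀ i, 0 ≤ W i ^ (-(2 + 1 / 8) : ℝ) := fun i =>
      Real.rpow_nonneg (by nlinarith [(hW i).1]) _
    have e1 : 0 ≤ ∑ i, |C i| := Finset.sum_nonneg fun i _ => abs_nonneg _
    rw [mul_assoc]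
    refine (rW W hW α hα v hv).cl (rb _ v hv) P.one_le
      (mul_nonneg e1 (Finset.sum_nonneg fun i _ => e0 i)) fun i => ?_
    rw [sub_sub_sub_cancel_right]
    exact (hC i _ ((h1 ⟨i, rfl⟩).trans (w4.trans (hW i).1)) (α i, v) ⟨hα i, hv⟩).trans
      (mul_le_mul ((le_abs_self _).trans (Finset.single_le_sum (fun i _ => abs_nonneg (C i))
        (Finset.mem_univ i))) (Finset.single_le_sum (fun i _ => e0 i) (Finset.mem_univ i))
        (e0 i) e1)
  · have hs : ∀ᶠ W' in 𝓝 W, ∀ i, P218PB.Mchi * |W' i - W i| < 1 / 20 := eventually_all.2 fun i =>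
      (continuous_const.mul ((continuous_apply i).sub continuous_const).abs).continuousAt.eventually
        (gt_mem_nhds (by simp))
    have e0 : ∀ i, 0 ≤ 5 * P218PB.CP * W i ^ 3 := fun i =>
      mul_nonneg (mul_nonneg (by norm_num) P218PB.CP_nonneg) (pow_nonneg (by nlinarith [(hW i).1]) _)
    have e1 : 0 ≤ ∑ i, 5 * P218PB.CP * W i ^ 3 := Finset.sum_nonneg fun i _ => e0 i
    filter_upwards [hs] with W' hs hW' α hα hα' v hv
    rw [mul_assoc]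
    refine (rW W' hW' α hα' v hv).cl (rW W hW α hα v hv) P.one_le
      (mul_nonneg e1 (norm_nonneg _)) fun i => ?_
    rw [sub_sub_sub_cancel_right]
    exact (P218PB.endFam_ab (P.endIn i) (P.fam i) (w2.trans (hW i).1) (w2.trans (hW' i).1)
      (hs i).le (hα i) (hα' i) hv (by linarith) (w3.trans (hW i).1)).trans
      (mul_le_mul (Finset.single_le_sum (fun i _ => e0 i) (Finset.mem_univ i))
        (norm_le_pi_norm (W' - W) i) (abs_nonneg _) e1)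
  · have p0 : 0 ≤ p.1 := (le_max_right _ _).trans hp
    rcases j with i | k
    · rw [abs_yl]
      exact mul_le_mul (norm_le_pi_norm g i) (P.ys_bd i ((le_max_left _ _).trans hp)).2
        (norm_nonneg _) (norm_nonneg _)
    · simp only [yl, Sum.elim_inr, abs_zero]; positivity
  · refine eq_zero_of_sqrt (C := C') (L := max L' P.L0) fun x hx => ?_
    have h2 := h (.inl i) (x, 0) ((le_max_left _ _).trans hx)
    rw [abs_yl] at h2
    exact (mul_le_mul_of_nonneg_left (P.ys_bd i (p := (x, 0)) ((le_max_right _ _).trans hx)).1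
      (abs_nonneg _)).trans h2

end Pack

end Vale.Agent.P218A1
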