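import Vale.Agent.P218A1.Base
import Vale.Agent.P218PB.Joint

/-! Collar data which are represented by jets in the Wiener algebra. -/

noncomputable section

namespace Vale.Agent.P218A1
open Set Complex Metric Filter Topology Vale.Agent.P218EN Vale.Agent.P218EN.WA Vale.Agent.P218CH
open Vale.Agent.P218XI Vale.Agent.P218VA Vale.Agent.P218MP Vale.Agent.P272.K.LIN
open Vale.Agent.P218CO (T3 J2 pj EndOp EndSol LinEnd VC sgn ends CoreOp geoBd)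
open Vale.Agent.P218CN (ConeFam coneOp jvE j0)
open Vale.Agent.P218GA (E3 Model)
open Vale.Agent.P218SQ.D7 (Cl Rl HolFam)

lemma jet_smul {a b : ℝ} {A : ℝ → ℂ} {J : Fin 6 → WA} (h : Jet a b A J) (c : ℂ) :
    Jet a b A (c • J) := by
  refine ⟨fun k w hw => ((h.d0 k w hw).const_mul c).congr_deriv ?_, fun k w hw => ?_,
    fun k w hw => ?_, fun k w hw => ?_, fun k w hw => ?_⟩
  · simp [mul_left_comm]
  · simpa [mul_left_comm] using (h.d3 k w hw).const_mul c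
  · simp [h.t1 k w hw, mul_left_comm]
  · simp [h.t2 k w hw, mul_left_comm]
  · simp [h.t5 k w hw, mul_left_comm]

lemma jet_add {a b : ℝ} {A : ℝ → ℂ} {J J' : Fin 6 → WA} (h : Jet a b A J) (h' : Jet a b A J') :
    Jet a b A (J + J') := by
  simpa using h.sub (jet_smul h' (-1))

lemma wEq_sub {I : Set ℝ} {x y : WA} (h : WEq I x y) (z : WA) : WEq I (x - z) (y - z) :=
  fun k w hw => by simp only [co_sub, BoundedContinuousFunction.sub_apply, h k w hw]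

lemma wEq_rp {a L W : ℝ} {α : ℂ} (P : Prof a W α) (hL : L ≤ W) (J : Fin 6 → WA) (l : Fin 6) :
    WEq (Icc a L) (rp a W 0 α J l) (ab a L α J l) := fun k w hw => by
  rw [co_ab, P218EN.cl_of_mem hw]
  exact rp_congr (Prof.zero P.pos) P hL (fun _ _ _ _ => rfl) l k w hw

section can
variable {V : Type*} [NormedAddCommGroup V] [NormedSpace ℂ V] {a s r K L0 : ℝ} {RV : Set V}
  {Cf' : V × (Fin 6 → WA) → WA} {JS : Fin 6 → WA} {J : ℝ → ℂ × V → Fin 6 → WA}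
  {Y : ℝ → Fin 3 → V → Fin 6 → WA} (h : Can a s r K L0 RV Cf' JS J Y)
include h

lemma cpt_Yt (g : ℂ) {v : V} (hv : v ∈ ball (0 : V) r) : Cpt a L0 fun L => Yt (Y L) g v :=
  fun L L' h1 h2 l k w hw => by
    simp [Yt, can_cpt h 0 hv L L' h1 h2 l k w hw, can_cpt h 1 hv L L' h1 h2 l k w hw,
      can_cpt h 2 hv L L' h1 h2 l k w hw]

lemma jet_Yt (g : ℂ) {v : V} (hv : v ∈ ball (0 : V) r) {L : ℝ} (hL : L0 ≤ L) :
    Jet a L (Af 0) (Yt (Y L) g v) :=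
  jet_add (jet_add (h.jet L hL 0 v hv) (jet_smul (h.jet L hL 1 v hv) _))
    (jet_smul (h.jet L hL 2 v hv) _)

lemma holo_Yt {L : ℝ} (hL : L0 ≤ L) :
    DifferentiableOn ℂ (fun q : ℂ × V => Yt (Y L) q.1 q.2) (univ ×ˢ ball 0 r) := by
  have k : ∀ n, DifferentiableOn ℂ (fun q : ℂ × V => Y L n q.2) (univ ×ˢ ball 0 r) := fun n =>
    (h.holo L hL n).comp differentiableOn_snd fun q hq => hq.2
  have f : DifferentiableOn ℂ (fun q : ℂ × V => q.1) (univ ×ˢ ball 0 r) := differentiableOn_fst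
  exact ((k 0).add (f.smul (k 1))).add ((f.pow 2).smul (k 2))

lemma real_Yt {L : ℝ} (hL : L0 ≤ L) {g : ℂ} (hg : g.im = 0) {v : V} (hv : v ∈ ball (0 : V) r)
    (hr : v ∈ RV) (l : Fin 6) : cj (Yt (Y L) g v l) = Yt (Y L) g v l := by
  have k : ∀ n w θ, starRingEnd ℂ ((Y L n v l).ev w θ) = (Y L n v l).ev w θ := fun n w θ => by
    rw [← ev_cj, h.real L hL n v hv hr]
  refine ev_inj fun w θ => ?_
  simp only [ev_cj, Yt, Pi.add_apply, Pi.smul_apply, ev_add, ev_smul, map_add, map_mul, map_pow, k,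
    conj_eq_iff_im.2 hg]

lemma Yt_sub_le {L : ℝ} (hL : L0 ≤ L) : ∃ B : ℝ, 0 ≤ B ∧ ∀ g : ℂ, ‖g‖ ≤ 1 →
    ∀ v ∈ ball (0 : V) r, ‖Yt (Y L) g v - Yt (Y L) 0 v‖ ≤ B * ‖g‖ := by
  obtain ⟨B, hB⟩ := h.bdd L hL
  refine ⟨2 * |B|, by positivity, fun g hg v hv => ?_⟩
  have e : Yt (Y L) g v - Yt (Y L) 0 v = g • (Y L 1 v + g • Y L 2 v) := by
    simp [Yt, add_assoc, smul_smul, sq]
  have h1 := norm_add_le (Y L 1 v) (g • Y L 2 v)
  have h2 := mul_le_of_le_one_left (norm_nonneg (Y L 2 v)) hg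
  rw [norm_smul] at h1
  rw [e, norm_smul, mul_comm]
  gcongr
  linarith [hB 1 v hv, hB 2 v hv, le_abs_self B]

end can

variable {ι κ : Type} {ε : ι ⊕ κ → Bool} {a : ℝ}

/-- the collar data `(μ, n)` are given by the jets `Z` and `Jc` -/
structure Rep (ε : ι ⊕ κ → Bool) (a : ℝ) (Jc : κ → Fin 6 → WA) (μ : ι ⊕ κ → ℝ × ℝ → ℂ)
    (n : ι × Fin 3 → ℂ) (Z : ι → Fin 6 → WA) : Prop where
  per : ∀ i, Per (μ (.inl i))
  cd : ∀ i (p : ℝ × ℝ), p.1 ∈ Ioo a (a + 9) →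
    ContDiffAt ℝ 2 (μ (.inl i)) p ∧ pj (μ (.inl i)) p = (sgn (ε (.inl i)) : ℂ) • jtL p (Z i)
  md : ∀ q, n q = sgn (ε (.inl q.1)) * md a (Z q.1) q.2
  cone : ∀ k, μ (.inr k) = j0 (Jc k)

lemma Rep.cl [Fintype ι] {Jc : κ → Fin 6 → WA} {μ μ' : ι ⊕ κ → ℝ × ℝ → ℂ}
    {n n' : ι × Fin 3 → ℂ} {Z Z' : ι → Fin 6 → WA} (h : Rep ε a Jc μ n Z)
    (h' : Rep ε a Jc μ' n' Z') (ha : 1 ≤ a) {η : ℝ} (h0 : 0 ≤ η) (hη : ∀ i, ‖Z i - Z' i‖ ≤ η) :
    Cl a μ μ' n n' (2 * η) := by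
  refine ⟨fun j p hp => ?_, (pi_norm_le_iff_of_nonneg (by positivity)).2 fun q => ?_⟩
  · rcases j with i | k
    · rw [(h.cd i p hp).2, (h'.cd i p hp).2, ← smul_sub, ← map_sub, norm_smul, norm_sgn]
      linarith [norm_jtL_le (Z i - Z' i) (ha.trans hp.1.le), hη i]
    · rw [h.cone, h'.cone, sub_self, norm_zero]; positivity
  · rw [Pi.sub_apply, h.md, h'.md, ← mul_sub, ← Pi.sub_apply, ← map_sub, norm_mul, norm_sgn]
    linarith [norm_le_pi_norm (P218XI.md a (Z q.1 - Z' q.1)) q.2, norm_md_le a (Z q.1 - Z' q.1),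
      hη q.1]

variable {S : Set E3} {w : E3 → ℝ} {δ0 C0 : ℝ} {M : Type} [TopologicalSpace M]
  [ChartedSpace E2 M] {m : Model S w δ0 C0 ι κ M} {𝒞 : Cov E2 M} {K : ℝ}

namespace Pack
variable (P : Pack m ε 𝒞 a K)

theorem holFam [Fintype ι] {Ω : Set (ι → ℂ)} {O' : (ι → ℂ) → VC 𝒞 → ι ⊕ κ → ℝ × ℝ → ℂ}
    {m' : (ι → ℂ) → VC 𝒞 → ι × Fin 3 → ℂ} {Z : (ι → ℂ) → VC 𝒞 → ι → Fin 6 → WA}
    (h : ∀ x ∈ Ω, ∀ v ∈ ball (0 : VC 𝒞) P.r, Rep ε a (fun k => P.Jc k v) (O' x v) (m' x v) (Z x v))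
    (hd : ∀ i, DifferentiableOn ℂ (fun q : (ι → ℂ) × VC 𝒞 => Z q.1 q.2 i) (Ω ×ˢ ball 0 P.r))
    (hr : ∀ x ∈ Ω, (∀ i, (x i).im = 0) → ∀ v ∈ ball (0 : VC 𝒞) P.r, v.im = 0 → ∀ i,
      cj (Z x v i 0) = Z x v i 0) : HolFam a P.r Ω O' m' := by
  refine ⟨fun x hx v hv j => ?_, fun j p hp => ?_, differentiableOn_pi.2 fun q => ?_,
    fun x hx hi v hv h0 => ⟨funext fun q => ?_, fun j p hp => ?_⟩⟩
  · rcases j with i | k
    · exact ⟨(h x hx v hv).per i, fun p hp => ((h x hx v hv).cd i p hp).1⟩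
    · rw [(h x hx v hv).cone]
      exact ⟨((P.cone k).sol v hv).per, fun p hp => ((P.cone k).sol v hv).cd p hp.1⟩
  · rcases j with i | k
    · exact (((jtL p).differentiable.comp_differentiableOn (hd i)).const_smul
        (sgn (ε (.inl i)) : ℂ)).fst.congr fun q hq =>
          congrArg Prod.fst ((h _ hq.1 _ hq.2).cd i p hp).2
    · exact (((P.cone k).hol2 hp.1).comp differentiableOn_snd fun q hq => hq.2).fst.congr
        fun q hq => by rw [(h _ hq.1 _ hq.2).cone]; rfl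
  · exact ((differentiableOn_pi.1 ((md a).differentiable.comp_differentiableOn (hd q.1))
      q.2).const_mul _).congr fun x hx => (h _ hx.1 _ hx.2).md q
  · rw [Pi.star_apply, RCLike.star_def, conj_eq_iff_im, (h x hx v hv).md, im_ofReal_mul,
      im_md (hr x hx hi v hv h0 _), mul_zero]
  · rcases j with i | k
    · have e : O' x v (.inl i) p = sgn (ε (.inl i)) * e0 (Z x v i) p :=
        congrArg (fun z => z.1.1) ((h x hx v hv).cd i p hp).2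
      rw [e, im_ofReal_mul, im_e0 (hr x hx hi v hv h0 i), mul_zero]
    · rw [(h x hx v hv).cone]
      exact (P.cone k).real0 hv h0 p

lemma rep_OW {W : ι → ℝ} {L : ℝ} (hL : a + 9 ≤ L) (hW : ∀ i, a ^ 2 ≤ W i) (hW' : ∀ i, L ≤ W i)
    {α : ι → ℂ} (hα : α ∈ DD W K) {v : VC 𝒞} (hv : v ∈ ball (0 : VC 𝒞) P.r) :
    Rep ε a (fun k => P.Jc k v) (P.OW W α v) (P.mW W α v)
      fun i => ab a L (α i) (P.J i (W i) (α i, v)) - P.JS i := by
  have e : ∀ i l, WEq (Icc a L) ((rp a (W i) 0 (α i) (P.J i (W i) (α i, v)) - P.JS i) l)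
      ((ab a L (α i) (P.J i (W i) (α i, v)) - P.JS i) l) := fun i l =>
    wEq_sub (wEq_rp (P.prof i (hW i) (hα i)) (hW' i) _ l) _
  refine ⟨fun i x θ => congrArg (_ * ·) (per_e0 _ x θ), fun i p hp => ?_, fun q => ?_,
    fun _ => rfl⟩
  · have p1 : p.1 ∈ Ioo a L := ⟨hp.1, hp.2.trans_le hL⟩
    have Q := P.prof i (hW i) (hα i)
    obtain ⟨h1, h2⟩ := pj_e0 P.pos ((jet_rp (Prof.zero P.pos) Q
      ((P.fam i).sol _ (hW i) (α i, v) ⟨hα i, hv⟩).jet).sub ((P.sj i).jet P.le _))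
      (p := p) ⟨p1.1, p1.2.trans_le (hW' i)⟩
    exact ⟨contDiffAt_const.mul h1, (pj_sgn _ h1).trans (by
      rw [h2, jtL_congr (e i) (Ioo_subset_Icc_self p1)])⟩
  · rw [mW, md_congr fun k x hx => e q.1 0 k x (hx ▸ left_mem_Icc.2 (by linarith))]

lemma rep_Ob {L : ℝ} (hL : a + 9 ≤ L) (hL0 : P.L0 ≤ L) (g : ι → ℂ) {v : VC 𝒞}
    (hv : v ∈ ball (0 : VC 𝒞) P.r) : Rep ε a (fun k => P.Jc k v) (P.Ob g v) (P.mb g v)
      fun i => Yt (P.Y i L) (g i) v - P.JS i := by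
  have e := fun i => (cpt_Yt (P.can i) (g i) hv).sub (P.JS i)
  refine ⟨fun i x θ => congrArg (_ * ·) (per_gl _ _ x θ), fun i p hp => ?_, fun q => ?_,
    fun _ => rfl⟩
  · obtain ⟨h1, h2⟩ := (e i).pj P.pos hL0 ((jet_Yt (P.can i) (g i) hv hL0).sub
      ((P.sj i).jet P.le _)) (p := p) ⟨hp.1, hp.2.trans_le hL⟩
    exact ⟨contDiffAt_const.mul h1, (pj_sgn _ h1).trans (by rw [h2])⟩
  · rw [mb, md_congr fun k x hx => e q.1 _ _ le_rfl hL0 0 k x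
      (hx ▸ left_mem_Icc.2 ((le6 a).trans (P.can q.1).le))]

lemma Ob_zero (v : VC 𝒞) : P.Ob 0 v = P.O v := by simp [Ob, O, O0, Yt]

lemma mb_zero (v : VC 𝒞) : P.mb 0 v = P.mO v := funext fun q => by simp [mb, mO, m0, Yt]

end Pack

end Vale.Agent.P218A1
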